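import Vale.Agent.P223.H791.Alg
import Vale.Agent.P223.H959.KahD
import Vale.Agent.P272.K.INT.Dens

/-! Blocks C2 and C3: the real charts of a complex manifold, and the real metric of a Hermitian
metric. -/

open scoped Manifold ContDiff ComplexOrder Matrix ComplexConjugate Topology

namespace Vale.Agent.P223.H140

open Vale.Agent.P223.H959 Vale.Agent.P223.H959.KahD Vale.Agent.P223.H791
open Vale.Agent.P272.K (Cm Chart IsHermitian dz dzb jacM)
open Vale.Agent.P272.K.INT

variable {m : ℕ}

/-- The real matrix of a complex matrix. -/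
def rM (D : Matrix (Fin m) (Fin m) ℂ) : Matrix (Fin (m + m)) (Fin (m + m)) ℝ :=
  blk (D.map Complex.re) (-D.map Complex.im) (D.map Complex.im) (D.map Complex.re)

theorem rM_comm (D : Matrix (Fin m) (Fin m) ℂ) : rM D * stdJ m = stdJ m * rM D := by
  rw [rM, stdJ, blk_mul, blk_mul]
  simp

theorem map_re_mul (A B : Matrix (Fin m) (Fin m) ℂ) : (A * B).map Complex.re =
    A.map Complex.re * B.map Complex.re - A.map Complex.im * B.map Complex.im := by
  ext i j
  simp only [Matrix.map_apply, Matrix.mul_apply, Matrix.sub_apply, Complex.re_sum, Complex.mul_re,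
    Finset.sum_sub_distrib]

theorem map_im_mul (A B : Matrix (Fin m) (Fin m) ℂ) : (A * B).map Complex.im =
    A.map Complex.re * B.map Complex.im + A.map Complex.im * B.map Complex.re := by
  ext i j
  simp only [Matrix.map_apply, Matrix.mul_apply, Matrix.add_apply, Complex.im_sum, Complex.mul_im,
    Finset.sum_add_distrib]

theorem realM_change (D H : Matrix (Fin m) (Fin m) ℂ) :
    realM (Dᵀ * H * D.map (starRingEnd ℂ)) = (rM D)ᵀ * realM H * rM D := by
  have h1 : (D.map (starRingEnd ℂ)).map Complex.re = D.map Complex.re := by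
    ext i j
    exact Complex.conj_re _
  have h2 : (D.map (starRingEnd ℂ)).map Complex.im = -D.map Complex.im := by
    ext i j
    exact Complex.conj_im _
  have h3 : (Dᵀ).map Complex.re = (D.map Complex.re)ᵀ := rfl
  have h4 : (Dᵀ).map Complex.im = (D.map Complex.im)ᵀ := rfl
  rw [realM, realM, Matrix.mul_smul, Matrix.smul_mul, rM, blk_transpose, blk_mul, blk_mul]
  simp only [map_re_mul, map_im_mul, h1, h2, h3, h4]
  generalize D.map Complex.re = P
  generalize D.map Complex.im = Q
  generalize H.map Complex.re = R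
  generalize H.map Complex.im = I
  rw [Matrix.transpose_neg]
  congr 2
  all_goals noncomm_ring

/-- The Jacobian matrix of a holomorphic map in real coordinates. -/
theorem jac_real (F : Cm m → Cm m) (x : Fin (m + m) → ℝ)
    (hF : ∀ p, DifferentiableAt ℂ (fun z => F z p) ((toReal m).symm x)) :
    K.jac (fun y => toReal m (F ((toReal m).symm y))) x =
      rM (Matrix.of fun p i => dz i (fun z => F z p) ((toReal m).symm x)) := by
  have h3 : ∀ p j, HasDerivAt (fun t => F ((toReal m).symm (Function.update x j t)) p)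
      (fderiv ℝ (fun z => F z p) ((toReal m).symm x) (cv j)) (x j) := by
    intro p j
    have h1 : HasDerivAt (fun t => Function.update x j t) (Pi.single j 1) (x j) :=
      hasDerivAt_update x j (x j)
    have h2 : HasDerivAt (fun t => (toReal m).symm (Function.update x j t)) (cv j) (x j) :=
      (((toReal m).symm : (Fin (m + m) → ℝ) →L[ℝ] Cm m).hasFDerivAt.comp_hasDerivAt (x j) h1)
    have h4 : HasFDerivAt (fun z => F z p) (fderiv ℝ (fun z => F z p) ((toReal m).symm x))
        ((toReal m).symm (Function.update x j (x j))) := by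
      rw [Function.update_eq_self]
      exact ((hF p).restrictScalars ℝ).hasFDerivAt
    exact h4.comp_hasDerivAt (x j) h2
  have h5 : ∀ p j, K.jac (fun y => toReal m (F ((toReal m).symm y))) x (Fin.castAdd m p) j =
      (fderiv ℝ (fun z => F z p) ((toReal m).symm x) (cv j)).re := by
    intro p j
    show deriv (fun t => toReal m (F ((toReal m).symm (Function.update x j t))) (Fin.castAdd m p))
      (x j) = _
    simp only [toReal_left]
    exact (Complex.reCLM.hasFDerivAt.comp_hasDerivAt (x j) (h3 p j)).deriv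
  have h6 : ∀ p j, K.jac (fun y => toReal m (F ((toReal m).symm y))) x (Fin.natAdd m p) j =
      (fderiv ℝ (fun z => F z p) ((toReal m).symm x) (cv j)).im := by
    intro p j
    show deriv (fun t => toReal m (F ((toReal m).symm (Function.update x j t))) (Fin.natAdd m p))
      (x j) = _
    simp only [toReal_right]
    exact (Complex.imCLM.hasFDerivAt.comp_hasDerivAt (x j) (h3 p j)).deriv
  have h7 : ∀ p q, dzb q (fun z => F z p) ((toReal m).symm x) = 0 := fun p q =>
    dzb_of_holo (n := m) (hF p) q
  ext i j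
  refine Fin.addCases (fun p => ?_) (fun p => ?_) i <;>
    refine Fin.addCases (fun q => ?_) (fun q => ?_) j
  · rw [h5, cv_left, Vale.Agent.P272.K.INT.fderiv_single, h7, rM, blk11]
    simp
  · rw [h5, cv_right, Vale.Agent.P272.K.INT.fderiv_single, h7, rM, blk12]
    simp
  · rw [h6, cv_left, Vale.Agent.P272.K.INT.fderiv_single, h7, rM, blk21]
    simp
  · rw [h6, cv_right, Vale.Agent.P272.K.INT.fderiv_single, h7, rM, blk22]
    simp

section
variable {X : Type} [TopologicalSpace X] [ChartedSpace (Cm m) X]

theorem at_real {a p : X} {x : Fin (m + m) → ℝ} (h : K.At (realAtlas m X a) p x) :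
    P272.K.At (chartAt (Cm m) a) p ∧ (toReal m).symm x = chartAt (Cm m) a p := by
  obtain ⟨h1, h2⟩ := h
  have hp : p ∈ (chartAt (Cm m) a).source := by
    have := h1
    simp only [realAtlas, OpenPartialHomeomorph.trans_source] at this
    exact this.1
  refine ⟨⟨chart_mem_atlas _ _, hp⟩, ?_⟩
  rw [← h2]
  exact (toReal m).symm_apply_apply _

theorem cm_real (a b : X) : K.cm (realAtlas m X a) (realAtlas m X b) =
    fun y => toReal m ((fun z => chartAt (Cm m) b ((chartAt (Cm m) a).symm z))
      ((toReal m).symm y)) := rfl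

variable [IsManifold 𝓘(ℂ, Cm m) ω X]

theorem trans_diff {a b p : X} {x y : Fin (m + m) → ℝ} (h1 : K.At (realAtlas m X a) p x)
    (h2 : K.At (realAtlas m X b) p y) :
    ContDiffAt ℂ ω (fun z => chartAt (Cm m) b ((chartAt (Cm m) a).symm z)) ((toReal m).symm x) := by
  obtain ⟨h3, h4⟩ := at_real h1
  obtain ⟨h5, -⟩ := at_real h2
  rw [h4]
  exact transition_contDiffAt h3 h5

theorem jac_cm {a b p : X} {x y : Fin (m + m) → ℝ} (h1 : K.At (realAtlas m X a) p x)
    (h2 : K.At (realAtlas m X b) p y) :
    K.jac (K.cm (realAtlas m X a) (realAtlas m X b)) x =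
      rM (jacM (chartAt (Cm m) a) (chartAt (Cm m) b) p) := by
  rw [cm_real, jac_real _ x fun q => differentiableAt_pi.1
    ((trans_diff h1 h2).differentiableAt (by norm_num)) q]
  obtain ⟨-, h4⟩ := at_real h1
  rw [h4]
  rfl

end

/-- Block C2. -/
theorem specAtl : SpecAtl := by
  intro m X _ _ _ a
  refine ⟨⟨_, ?_, rfl⟩, fun b p x y h1 h2 => ⟨fun i => ?_, ?_⟩⟩
  · simp only [realAtlas, OpenPartialHomeomorph.trans_source]
    exact ⟨mem_chart_source _ _, trivial⟩
  · have h3 := (trans_diff h1 h2).restrict_scalars ℝ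
    have h4 : ContDiffAt ℝ ∞ (fun z => toReal m ((fun z => chartAt (Cm m) b
        ((chartAt (Cm m) a).symm z)) ((toReal m).symm z))) x :=
      (toReal m).contDiff.contDiffAt.comp x
        ((h3.of_le (by exact_mod_cast le_top)).comp x (toReal m).symm.contDiff.contDiffAt)
    exact contDiffAt_pi.1 h4 i
  · show K.jac (K.cm (realAtlas m X a) (realAtlas m X b)) x * stdJ m =
      stdJ m * K.jac (K.cm (realAtlas m X a) (realAtlas m X b)) x
    rw [jac_cm h1 h2, rM_comm]

/-- Block C3. -/
theorem specHerm : SpecHerm := by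
  intro m X _ _ _ w hw a b p x y h1 h2
  obtain ⟨h3, h4⟩ := at_real h1
  obtain ⟨h5, h6⟩ := at_real h2
  refine ⟨fun i j => ?_, ?_, ?_, ?_⟩
  · have hs : ∀ r s, ContDiffAt ℝ ∞ (fun z => w (chartAt (Cm m) a) ((toReal m).symm z) r s) x := by
      intro r s
      have h7 := hw.smooth _ _ h3 r s
      rw [← h4] at h7
      exact h7.comp x (toReal m).symm.contDiff.contDiffAt
    have hre : ∀ r s, ContDiffAt ℝ ∞
        (fun z => (w (chartAt (Cm m) a) ((toReal m).symm z) r s).re) x := fun r s =>
      Complex.reCLM.contDiff.contDiffAt.comp x (hs r s)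
    have him : ∀ r s, ContDiffAt ℝ ∞
        (fun z => (w (chartAt (Cm m) a) ((toReal m).symm z) r s).im) x := fun r s =>
      Complex.imCLM.contDiff.contDiffAt.comp x (hs r s)
    show ContDiffAt ℝ ∞ (fun z => realM (w (chartAt (Cm m) a) ((toReal m).symm z)) i j) x
    refine Fin.addCases (fun r => ?_) (fun r => ?_) i <;>
      refine Fin.addCases (fun s => ?_) (fun s => ?_) j
    all_goals simp only [realM, Matrix.smul_apply, blk11, blk12, blk21, blk22, Matrix.neg_apply,
      Matrix.map_apply, smul_eq_mul]
    · exact contDiffAt_const.mul (hre r s)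
    · exact contDiffAt_const.mul (him r s)
    · exact contDiffAt_const.mul (him r s).neg
    · exact contDiffAt_const.mul (hre r s)
  · show (realM (w (chartAt (Cm m) a) ((toReal m).symm x))).PosDef
    rw [h4]
    exact realM_posDef (hw.posDef _ _ h3)
  · exact realM_inv _
  · rw [jac_cm h1 h2]
    show realM (w (chartAt (Cm m) a) ((toReal m).symm x)) = (rM (jacM (chartAt (Cm m) a)
      (chartAt (Cm m) b) p))ᵀ * realM (w (chartAt (Cm m) b) ((toReal m).symm y)) *
      rM (jacM (chartAt (Cm m) a) (chartAt (Cm m) b) p)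
    rw [h4, h6, hw.change _ _ p h3 h5, realM_change]

end Vale.Agent.P223.H140
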